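import Vale.Agent.P070.Rep

/-!
P070, UNIQUE: the atomic representation of an atlas and the unitaries of its links.
-/

open Filter Topology
open scoped InnerProductSpace

namespace Vale.Agent.P070.Atlas

variable (D : Atlas)

/-- The space: one copy of `K0` for each class. -/
abbrev Space : Type := lp (fun _ : Option D.ι => K0) 2

/-- The representation of a class. -/
noncomputable def piece : Option D.ι → Car →⋆ₐ[ℂ] (K0 →L[ℂ] K0)
  | none => baseRep
  | some i => D.rep i

/-- The vector of a class. -/
noncomputable def vec : Option D.ι → K0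
  | none => delta0
  | some i => D.ξ i

theorem irred_piece (hC : CarSpec.{0}) : ∀ j, IsIrred (D.piece j)
  | none => hC.base
  | some i => D.irred i

theorem norm_vec : ∀ j, ‖D.vec j‖ = 1
  | none => by simp [vec, delta0, lp.norm_single]
  | some i => (D.flag i).unit

variable (hC : CarSpec.{0})

/-- The atomic representation. -/
noncomputable def atRep : Car →⋆ₐ[ℂ] (D.Space →L[ℂ] D.Space) where
  toFun x := lp.mapCLM 2 (fun j => D.piece j x) (norm_nonneg x) fun j => hC.norm_le K0 (D.piece j) x
  map_one' := ContinuousLinearMap.ext fun f => lp.ext (funext fun j => by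
    show D.piece j 1 (f j) = f j
    rw [map_one, one_apply_eq_self])
  map_mul' x y := ContinuousLinearMap.ext fun f => lp.ext (funext fun j => by
    show D.piece j (x * y) (f j) = D.piece j x (D.piece j y (f j))
    rw [map_mul, mul_apply_eq_comp])
  map_zero' := ContinuousLinearMap.ext fun f => lp.ext (funext fun j => by
    show D.piece j 0 (f j) = 0
    rw [map_zero, zero_apply])
  map_add' x y := ContinuousLinearMap.ext fun f => lp.ext (funext fun j => by
    show D.piece j (x + y) (f j) = D.piece j x (f j) + D.piece j y (f j)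
    rw [map_add, add_apply])
  commutes' c := ContinuousLinearMap.ext fun f => lp.ext (funext fun j => by
    show D.piece j (algebraMap ℂ Car c) (f j) = c • f j
    rw [AlgHomClass.commutes, Algebra.algebraMap_eq_smul_one, smul_apply, one_apply_eq_self])
  map_star' x := by
    rw [ContinuousLinearMap.star_eq_adjoint]
    refine (ContinuousLinearMap.eq_adjoint_iff _ _).2 fun f g => ?_
    rw [lp.inner_eq_tsum, lp.inner_eq_tsum]
    refine tsum_congr fun j => ?_
    show ⟪D.piece j (star x) (f j), g j⟫_ℂ = ⟪f j, D.piece j x (g j)⟫_ℂ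
    rw [map_star, ContinuousLinearMap.star_eq_adjoint, ContinuousLinearMap.adjoint_inner_left]

theorem atRep_apply (x : Car) (f : D.Space) (j : Option D.ι) :
    D.atRep hC x f j = D.piece j x (f j) := rfl

open Classical in
/-- The inclusion of a class. -/
noncomputable def put (j : Option D.ι) : K0 →L[ℂ] D.Space :=
  lp.singleContinuousLinearMap ℂ (fun _ : Option D.ι => K0) 2 j

open Classical in
theorem put_apply (j k : Option D.ι) (v : K0) :
    D.put j v k = if k = j then v else 0 := by
  show (lp.single 2 j v : D.Space) k = _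
  by_cases h : k = j
  · subst h; rw [lp.single_apply_self, if_pos rfl]
  · rw [lp.single_apply_ne _ _ _ h, if_neg h]

theorem atRep_put (x : Car) (j : Option D.ι) (v : K0) :
    D.atRep hC x (D.put j v) = D.put j (D.piece j x v) := by
  classical
  refine lp.ext (funext fun k => ?_)
  rw [atRep_apply, put_apply, put_apply]
  by_cases h : k = j
  · subst h; rw [if_pos rfl, if_pos rfl]
  · rw [if_neg h, if_neg h, map_zero]

theorem norm_put (j : Option D.ι) (v : K0) : ‖D.put j v‖ = ‖v‖ := by
  classical
  exact lp.norm_single (E := fun _ : Option D.ι => K0) (by norm_num) j v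

theorem inner_put (j : Option D.ι) (v : K0) (f : D.Space) :
    ⟪D.put j v, f⟫_ℂ = ⟪v, f j⟫_ℂ := by
  classical
  exact lp.inner_single_left (G := fun _ : Option D.ι => K0) j v f

/-- Operators that agree on all classes agree. -/
theorem ext_put {E : Type*} [NormedAddCommGroup E] [NormedSpace ℂ E] {S T : D.Space →L[ℂ] E}
    (h : ∀ j v, S (D.put j v) = T (D.put j v)) : S = T := by
  classical
  refine ContinuousLinearMap.ext fun f => ?_
  have hs : HasSum (fun j => D.put j (f j)) f := lp.hasSum_single (by simp) f
  exact (hs.mapL S).unique ((hs.mapL T).congr_fun fun j => h j (f j))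

/-- The unit vector of a class. -/
noncomputable def eVec (j : Option D.ι) : D.Space := D.put j (D.vec j)

theorem norm_eVec (j : Option D.ι) : ‖D.eVec j‖ = 1 := by rw [eVec, norm_put, norm_vec]

theorem flag_piece (i : D.ι) : IsFlag (D.piece (some i)) (D.vec (some i)) (D.p i) := D.flag i

theorem base_piece (i : D.ι) : IsFlag (D.piece none) (D.vec none) (D.q i) := D.base i

theorem not_uniEquiv {j k : Option D.ι} (h : j ≠ k) (i : D.ι) (hj : j = some i) :
    ¬ UniEquiv (D.piece j) (D.piece k) := by
  subst hj
  cases k with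
  | none => exact D.ne_base i
  | some k => exact fun e => h (congrArg some (D.inj i k e))

/-- Only the class of a flag has vectors fixed by it. -/
theorem eq_zero_of_fix {j k : Option D.ι} (hjk : j ≠ k) {p : ℕ → Car}
    (hf : IsFlag (D.piece j) (D.vec j) p) {v : K0} (hv : ∀ n, D.piece k (p n) v = v)
    (hC : CarSpec.{0}) : v = 0 := by
  by_contra hne
  have e := hf.uniEquiv (D.irred_piece hC j) (D.irred_piece hC k) (hC.norm_le K0 _) hne hv
  cases j with
  | some i => exact D.not_uniEquiv hjk i rfl e
  | none =>
    cases k with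
    | none => exact hjk rfl
    | some i =>
      obtain ⟨U, hU⟩ := e
      exact D.ne_base i ⟨U.symm, fun x w => equiv_symm_apply U (hU x) w⟩

/-- The strong limit of a flag in the atomic representation. -/
theorem tendsto_flag {j : Option D.ι} {p : ℕ → Car} (hf : IsFlag (D.piece j) (D.vec j) p)
    (f : D.Space) :
    Tendsto (fun n => D.atRep hC (p n) f) atTop (𝓝 (⟪D.eVec j, f⟫_ℂ • D.eVec j)) := by
  classical
  obtain ⟨L, hL, hfix⟩ := hf.exists_limit (D.atRep hC) f
  have hfe : ∀ n, D.atRep hC (p n) (D.eVec j) = D.eVec j := fun n => by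
    rw [eVec, atRep_put, hf.fix]
  have hk : ∀ k, ∀ n, D.piece k (p n) (L k) = L k := fun k n => by
    rw [← atRep_apply (hC := hC), hfix]
  have hLe : L = ⟪D.vec j, L j⟫_ℂ • D.eVec j := by
    refine lp.ext (funext fun k => ?_)
    rw [lp.coeFn_smul, Pi.smul_apply, eVec, put_apply]
    by_cases h : k = j
    · subst h
      rw [if_pos rfl]
      exact hf.fix_unique (D.irred_piece hC k) (hC.norm_le K0 _) (hk k)
    · rw [if_neg h, smul_zero]
      exact D.eq_zero_of_fix (Ne.symm h) hf (hk k) hC
  have hinner : ⟪D.eVec j, f⟫_ℂ = ⟪D.eVec j, L⟫_ℂ := by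
    refine tendsto_nhds_unique (tendsto_const_nhds.congr fun n => ?_)
      ((continuous_const.inner continuous_id).tendsto L |>.comp hL)
    show ⟪D.eVec j, f⟫_ℂ = ⟪D.eVec j, D.atRep hC (p n) f⟫_ℂ
    rw [inner_proj ((hf.proj n).map (D.atRep hC)), hfe]
  rw [hinner, eVec, inner_put, ← eVec, ← hLe]
  exact hL

/-- Operators that agree off a flag and on its vector agree. -/
theorem ext_flag {E : Type*} [NormedAddCommGroup E] [NormedSpace ℂ E] {j : Option D.ι}
    {p : ℕ → Car} (hf : IsFlag (D.piece j) (D.vec j) p) {S T : D.Space →L[ℂ] E}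
    (h : ∀ n f, S (D.atRep hC (1 - p n) f) = T (D.atRep hC (1 - p n) f))
    (he : S (D.eVec j) = T (D.eVec j)) : S = T := by
  refine ContinuousLinearMap.ext fun f => ?_
  have h1 : Tendsto (fun n => D.atRep hC (1 - p n) f) atTop
      (𝓝 (f - ⟪D.eVec j, f⟫_ℂ • D.eVec j)) :=
    ((D.tendsto_flag hC hf f).const_sub f).congr fun n => by
      rw [map_sub, map_one, sub_apply, one_apply_eq_self]
  have h2 := tendsto_nhds_unique ((S.continuous.tendsto _).comp h1)
    (((T.continuous.tendsto _).comp h1).congr fun n => (h n f).symm)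
  rwa [map_sub, map_sub, map_smul, map_smul, he, sub_left_inj] at h2

theorem norm_sum_link_sub (i : D.ι) {m n : ℕ} (h : n ≤ m) (f : D.Space) :
    ‖D.atRep hC (linkSum (D.v i) m) f - D.atRep hC (linkSum (D.v i) n) f‖ =
      ‖D.atRep hC (D.p i n) f - D.atRep hC (D.p i m) f‖ := by
  refine (sq_eq_sq₀ (norm_nonneg _) (norm_nonneg _)).1 ?_
  rw [← sub_apply, ← sub_apply, ← map_sub, ← map_sub, norm_rep_sq, norm_rep_sq]
  congr 4
  have hl := D.linked i
  have e1 := linkSum_init hl (D.flag i) (D.base i) m
  have e2 := linkSum_init hl (D.flag i) (D.base i) n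
  have e3 : star (linkSum (D.v i) m) * linkSum (D.v i) n = 1 - D.p i n := by
    rw [← linkSum_mul hl (D.flag i) h, ← mul_assoc, e1, sub_mul, one_mul, mul_sub, mul_one,
      (D.flag i).mul_of_le' h, sub_self, sub_zero]
  have e4 : star (linkSum (D.v i) n) * linkSum (D.v i) m = 1 - D.p i n := by
    have := congrArg star e3
    rwa [star_mul, star_star, star_sub, star_one, ((D.flag i).proj n).isSelfAdjoint.star_eq] at this
  rw [star_sub, star_sub, sub_mul, mul_sub, mul_sub, e1, e2, e3, e4,
    ((D.flag i).proj n).isSelfAdjoint.star_eq, ((D.flag i).proj m).isSelfAdjoint.star_eq, sub_mul,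
    mul_sub, mul_sub, ((D.flag i).proj n).isIdempotentElem.eq,
    ((D.flag i).proj m).isIdempotentElem.eq, (D.flag i).mul_of_le h, (D.flag i).mul_of_le' h]
  abel

/-- The unitary of a link exists. -/
theorem exists_link (i : D.ι) : ∃ W : D.Space →L[ℂ] D.Space,
    (∀ n, W * D.atRep hC (1 - D.p i n) = D.atRep hC (linkSum (D.v i) n)) ∧
    W (D.eVec (some i)) = D.eVec none := by
  have hl := D.linked i
  have hcs : ∀ f, ∃ L, Tendsto (fun n => D.atRep hC (linkSum (D.v i) n) f) atTop (𝓝 L) :=
    fun f => cauchySeq_tendsto_of_complete (by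
      rw [Metric.cauchySeq_iff']
      intro ε hε
      obtain ⟨N, hN⟩ := Metric.cauchySeq_iff'.1
        (D.tendsto_flag hC (D.flag_piece i) f).cauchySeq ε hε
      refine ⟨N, fun n hn => ?_⟩
      rw [dist_eq_norm, D.norm_sum_link_sub hC i hn, norm_sub_rev, ← dist_eq_norm]
      exact hN n hn)
  choose L hL using hcs
  have hb : ∀ n f, ‖D.atRep hC (linkSum (D.v i) n) f‖ ≤ ‖f‖ := fun n f => by
    refine (pow_le_pow_iff_left₀ (norm_nonneg _) (norm_nonneg _) two_ne_zero).1 ?_
    rw [norm_rep_sq, linkSum_init hl (D.flag i) (D.base i) n, map_sub, map_one, sub_apply,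
      one_apply_eq_self, inner_sub_right, Complex.sub_re,
      ← norm_proj_sq (((D.flag i).proj n).map (D.atRep hC)), ← RCLike.re_to_complex,
      inner_self_eq_norm_sq]
    linarith [sq_nonneg ‖D.atRep hC (D.p i n) f‖]
  let lin : D.Space →ₗ[ℂ] D.Space :=
    { toFun := L
      map_add' := fun f g => tendsto_nhds_unique (hL (f + g))
        (((hL f).add (hL g)).congr fun n => (map_add _ f g).symm)
      map_smul' := fun c f => tendsto_nhds_unique (hL (c • f))
        (((hL f).const_smul c).congr fun n => (map_smul _ c f).symm) }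
  let W : D.Space →L[ℂ] D.Space :=
    lin.mkContinuous 1 (fun f => by
      rw [one_mul]
      exact le_of_tendsto' (hL f).norm fun n => hb n f) +
      (innerSL ℂ (D.eVec (some i))).smulRight (D.eVec none)
  have hfix : ∀ n, D.atRep hC (D.p i n) (D.eVec (some i)) = D.eVec (some i) := fun n => by
    rw [eVec, atRep_put, (D.flag_piece i).fix]
  refine ⟨W, fun n => ContinuousLinearMap.ext fun f => ?_, ?_⟩
  · show L (D.atRep hC (1 - D.p i n) f) +
      ⟪D.eVec (some i), D.atRep hC (1 - D.p i n) f⟫_ℂ • D.eVec none = _
    rw [inner_proj (((D.flag i).proj n).one_sub.map (D.atRep hC))]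
    have h0 : D.atRep hC (1 - D.p i n) (D.eVec (some i)) = 0 := by
      rw [map_sub, map_one, sub_apply, one_apply_eq_self, hfix, sub_self]
    rw [h0, inner_zero_left, zero_smul, add_zero]
    refine tendsto_nhds_unique (hL _) (tendsto_const_nhds.congr' ?_)
    filter_upwards [eventually_ge_atTop n] with m hm
    rw [← mul_apply_eq_comp, ← map_mul, linkSum_mul hl (D.flag i) hm]
  · show L (D.eVec (some i)) + ⟪D.eVec (some i), D.eVec (some i)⟫_ℂ • D.eVec none = _
    have h0 : L (D.eVec (some i)) = 0 := by
      refine tendsto_nhds_unique (hL _) (tendsto_const_nhds.congr fun n => ?_)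
      have e := linkSum_mul hl (D.flag i) (le_refl n)
      rw [← e, map_mul, mul_apply_eq_comp, map_sub, map_one, sub_apply, one_apply_eq_self,
        hfix, sub_self, map_zero]
    rw [h0, inner_self_eq_norm_sq_to_K, norm_eVec]
    simp

/-- The unitary of a link. -/
noncomputable def W (i : D.ι) : D.Space →L[ℂ] D.Space := Classical.choose (D.exists_link hC i)

theorem W_mul (i : D.ι) (n : ℕ) :
    D.W hC i * D.atRep hC (1 - D.p i n) = D.atRep hC (linkSum (D.v i) n) :=
  (Classical.choose_spec (D.exists_link hC i)).1 n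

theorem W_vec (i : D.ι) : D.W hC i (D.eVec (some i)) = D.eVec none :=
  (Classical.choose_spec (D.exists_link hC i)).2

theorem mul_W (i : D.ι) (n : ℕ) :
    D.atRep hC (1 - D.q i n) * D.W hC i = D.atRep hC (linkSum (D.v i) n) := by
  have hl := D.linked i
  refine D.ext_flag hC (D.flag_piece i) (fun m f => ?_) ?_
  · have hfl : (1 - D.q i n) * linkSum (D.v i) m = linkSum (D.v i) n * (1 - D.p i m) := by
      rcases le_total n m with h | h
      · have e := congrArg star (linkSum_mul hl.swap (D.base i) h)
        rw [star_mul, star_sub, star_one, ((D.base i).proj n).isSelfAdjoint.star_eq,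
          ← star_linkSum, ← star_linkSum, star_star, star_star] at e
        rw [e, ← linkSum_mul hl (D.flag i) (le_refl n), mul_assoc]
        congr 1
        rw [sub_mul, one_mul, mul_sub, mul_one, (D.flag i).mul_of_le h]
        abel
      · have e := congrArg star (linkSum_mul hl.swap (D.base i) (le_refl m))
        rw [star_mul, star_sub, star_one, ((D.base i).proj m).isSelfAdjoint.star_eq,
          ← star_linkSum, star_star] at e
        rw [linkSum_mul hl (D.flag i) h, ← e, ← mul_assoc]
        congr 1
        rw [sub_mul, one_mul, mul_sub, mul_one, (D.base i).mul_of_le' h]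
        abel
    rw [mul_apply_eq_comp, ← mul_apply_eq_comp (f := D.W hC i), W_mul, ← mul_apply_eq_comp,
      ← map_mul, hfl, map_mul, mul_apply_eq_comp]
  · have hfix : ∀ (j : Option D.ι) (p : ℕ → Car), IsFlag (D.piece j) (D.vec j) p → ∀ m,
        D.atRep hC (p m) (D.eVec j) = D.eVec j := fun j p hf m => by rw [eVec, atRep_put, hf.fix]
    rw [mul_apply_eq_comp, W_vec, map_sub, map_one, sub_apply, one_apply_eq_self,
      hfix none _ (D.base_piece i), sub_self, ← linkSum_mul hl (D.flag i) (le_refl n), map_mul,
      mul_apply_eq_comp, map_sub, map_one, sub_apply, one_apply_eq_self,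
      hfix (some i) _ (D.flag_piece i), sub_self, map_zero]

theorem star_W_vec (i : D.ι) : star (D.W hC i) (D.eVec none) = D.eVec (some i) := by
  have hfix : ∀ m, D.atRep hC (D.q i m) (D.eVec none) = D.eVec none := fun m => by
    rw [eVec, atRep_put, (D.base_piece i).fix]
  refine ext_inner_right ℂ fun f => ?_
  have key : innerSL ℂ (D.eVec none) ∘L D.W hC i = innerSL ℂ (D.eVec (some i)) := by
    refine D.ext_flag hC (D.flag_piece i) (fun n g => ?_) ?_
    · show ⟪D.eVec none, D.W hC i (D.atRep hC (1 - D.p i n) g)⟫_ℂ =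
        ⟪D.eVec (some i), D.atRep hC (1 - D.p i n) g⟫_ℂ
      rw [← mul_apply_eq_comp, W_mul, ← mul_W, mul_apply_eq_comp,
        inner_proj (((D.base i).proj n).one_sub.map (D.atRep hC)),
        inner_proj (((D.flag i).proj n).one_sub.map (D.atRep hC))]
      simp only [map_sub, map_one, sub_apply, one_apply_eq_self, hfix,
        show ∀ m, D.atRep hC (D.p i m) (D.eVec (some i)) = D.eVec (some i) from fun m => by
          rw [eVec, atRep_put, (D.flag_piece i).fix], sub_self, inner_zero_left]
    · show ⟪D.eVec none, D.W hC i (D.eVec (some i))⟫_ℂ = ⟪D.eVec (some i), D.eVec (some i)⟫_ℂ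
      rw [W_vec, inner_self_eq_norm_sq_to_K, inner_self_eq_norm_sq_to_K, norm_eVec, norm_eVec]
  rw [ContinuousLinearMap.star_eq_adjoint, ContinuousLinearMap.adjoint_inner_left]
  exact DFunLike.congr_fun key f

theorem star_mul_W (i : D.ι) (n : ℕ) :
    star (D.W hC i) * D.atRep hC (1 - D.q i n) = D.atRep hC (star (linkSum (D.v i) n)) := by
  have e := congrArg star (D.mul_W hC i n)
  rwa [star_mul, (((D.base i).proj n).one_sub.map (D.atRep hC)).isSelfAdjoint.star_eq,
    ← map_star] at e

theorem star_W_W (i : D.ι) : star (D.W hC i) * D.W hC i = 1 := by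
  refine D.ext_flag hC (D.flag_piece i) (fun n f => ?_) ?_
  · have e : star (D.W hC i) * D.W hC i * D.atRep hC (1 - D.p i n) =
        D.atRep hC (1 - D.p i n) := by
      rw [mul_assoc, W_mul]
      have e1 : (1 - D.q i n) * linkSum (D.v i) n = linkSum (D.v i) n := by
        have := congrArg star (linkSum_mul (D.linked i).swap (D.base i) (le_refl n))
        rwa [star_mul, star_sub, star_one, ((D.base i).proj n).isSelfAdjoint.star_eq,
          ← star_linkSum, star_star] at this
      rw [← e1, map_mul, ← mul_assoc, star_mul_W, ← map_mul,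
        linkSum_init (D.linked i) (D.flag i) (D.base i)]
    rw [one_apply_eq_self]
    exact DFunLike.congr_fun e f
  · rw [mul_apply_eq_comp, W_vec, star_W_vec, one_apply_eq_self]

theorem W_star_W (i : D.ι) : D.W hC i * star (D.W hC i) = 1 := by
  refine D.ext_flag hC (D.base_piece i) (fun n f => ?_) ?_
  · have e : D.W hC i * star (D.W hC i) * D.atRep hC (1 - D.q i n) =
        D.atRep hC (1 - D.q i n) := by
      rw [mul_assoc, star_mul_W]
      have e1 : (1 - D.p i n) * star (linkSum (D.v i) n) = star (linkSum (D.v i) n) := by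
        have := congrArg star (linkSum_mul (D.linked i) (D.flag i) (le_refl n))
        rwa [star_mul, star_sub, star_one, ((D.flag i).proj n).isSelfAdjoint.star_eq] at this
      rw [← e1, map_mul, ← mul_assoc, W_mul, ← map_mul]
      congr 1
      rw [star_linkSum]
      have := linkSum_init (D.linked i).swap (D.base i) (D.flag i) n
      rwa [← star_linkSum, star_star, star_linkSum] at this
    rw [one_apply_eq_self]
    exact DFunLike.congr_fun e f
  · rw [mul_apply_eq_comp, star_W_vec, W_vec, one_apply_eq_self]

end Vale.Agent.P070.Atlas
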