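import Vale.Agent.P070.Unique.Atomic

/-!
P070, UNIQUE: the algebra of an atlas has one irreducible representation.
-/

open Filter Topology
open scoped InnerProductSpace

namespace Vale.Agent.P070.Atlas

universe u v w

variable (D : Atlas) (hC : CarSpec.{0})

/-- The generators. -/
def gens : Set (D.Space →L[ℂ] D.Space) := Set.range (D.atRep hC) ∪ Set.range (D.W hC)

/-- The algebra. -/
noncomputable def alg : StarSubalgebra ℂ (D.Space →L[ℂ] D.Space) :=
  (StarAlgebra.adjoin ℂ (D.gens hC)).topologicalClosure

noncomputable instance : CStarAlgebra ↥(D.alg hC) :=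
  StarSubalgebra.cstarAlgebra (D.alg hC)
    (h_closed := StarSubalgebra.isClosed_topologicalClosure _)

theorem gens_mem {T : D.Space →L[ℂ] D.Space} (h : T ∈ D.gens hC) : T ∈ D.alg hC :=
  StarSubalgebra.le_topologicalClosure _ (StarAlgebra.subset_adjoin ℂ _ h)

/-- The union of the matrix algebras inside the algebra. -/
noncomputable def incl : Car →⋆ₐ[ℂ] ↥(D.alg hC) :=
  (D.atRep hC).codRestrict (D.alg hC) fun x => D.gens_mem hC (Or.inl ⟨x, rfl⟩)

/-- The links inside the algebra. -/
noncomputable def link (i : D.ι) : ↥(D.alg hC) :=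
  ⟨D.W hC i, D.gens_mem hC (Or.inr ⟨i, rfl⟩)⟩

theorem coe_incl (x : Car) : (D.incl hC x : D.Space →L[ℂ] D.Space) = D.atRep hC x := rfl

theorem link_mul (i : D.ι) (n : ℕ) :
    D.link hC i * D.incl hC (1 - D.p i n) = D.incl hC (linkSum (D.v i) n) :=
  Subtype.ext (D.W_mul hC i n)

theorem mul_link (i : D.ι) (n : ℕ) :
    D.incl hC (1 - D.q i n) * D.link hC i = D.incl hC (linkSum (D.v i) n) :=
  Subtype.ext (D.mul_W hC i n)

theorem star_link_link (i : D.ι) : star (D.link hC i) * D.link hC i = 1 :=
  Subtype.ext (D.star_W_W hC i)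

theorem link_star_link (i : D.ι) : D.link hC i * star (D.link hC i) = 1 :=
  Subtype.ext (D.W_star_W hC i)

theorem link_flag (i : D.ι) (n : ℕ) :
    D.link hC i * D.incl hC (D.p i n) = D.incl hC (D.q i n) * D.link hC i := by
  have e := (D.link_mul hC i n).trans (D.mul_link hC i n).symm
  rw [map_sub, map_sub, map_one, mul_sub, sub_mul, mul_one, one_mul] at e
  exact sub_right_inj.1 e

/-- Induction on the algebra. -/
theorem alg_induction {P : ↥(D.alg hC) → Prop} (hcl : IsClosed {a | P a})
    (hcar : ∀ x, P (D.incl hC x)) (hlink : ∀ i, P (D.link hC i))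
    (hlink' : ∀ i, P (star (D.link hC i)))
    (hadd : ∀ a b, P a → P b → P (a + b)) (hmul : ∀ a b, P a → P b → P (a * b))
    (a : ↥(D.alg hC)) : P a := by
  have h : ∀ T (hT : T ∈ StarAlgebra.adjoin ℂ (D.gens hC)),
      P ⟨T, StarSubalgebra.le_topologicalClosure _ hT⟩ ∧
        P (star ⟨T, StarSubalgebra.le_topologicalClosure _ hT⟩) := by
    intro T hT
    induction hT using StarAlgebra.adjoin_induction with
    | mem T hT =>
      rcases hT with ⟨x, rfl⟩ | ⟨i, rfl⟩
      · refine ⟨hcar x, ?_⟩
        show P (star (D.incl hC x))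
        rw [← map_star]
        exact hcar _
      · exact ⟨hlink i, hlink' i⟩
    | algebraMap c =>
      have e : ∀ c : ℂ, P (algebraMap ℂ ↥(D.alg hC) c) := fun c => by
        have := hcar (algebraMap ℂ Car c)
        rwa [AlgHomClass.commutes] at this
      refine ⟨e c, ?_⟩
      show P (star (algebraMap ℂ ↥(D.alg hC) c))
      rw [← algebraMap_star_comm]
      exact e _
    | add S T hS hT hS' hT' =>
      refine ⟨hadd _ _ hS'.1 hT'.1, ?_⟩
      rw [show (⟨S + T, _⟩ : ↥(D.alg hC)) = ⟨S, StarSubalgebra.le_topologicalClosure _ hS⟩ +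
        ⟨T, StarSubalgebra.le_topologicalClosure _ hT⟩ from rfl, star_add]
      exact hadd _ _ hS'.2 hT'.2
    | mul S T hS hT hS' hT' =>
      refine ⟨hmul _ _ hS'.1 hT'.1, ?_⟩
      rw [show (⟨S * T, _⟩ : ↥(D.alg hC)) = ⟨S, StarSubalgebra.le_topologicalClosure _ hS⟩ *
        ⟨T, StarSubalgebra.le_topologicalClosure _ hT⟩ from rfl, star_mul]
      exact hmul _ _ hT'.2 hS'.2
    | star T hT hT' =>
      refine ⟨hT'.2, ?_⟩
      rw [show (⟨star T, _⟩ : ↥(D.alg hC)) = star ⟨T, StarSubalgebra.le_topologicalClosure _ hT⟩
        from rfl, star_star]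
      exact hT'.1
  have hd : (a : D.Space →L[ℂ] D.Space) ∈
      closure ((StarAlgebra.adjoin ℂ (D.gens hC) : StarSubalgebra ℂ _) : Set _) := by
    rw [← StarSubalgebra.topologicalClosure_coe]
    exact a.2
  have hcl' : a ∈ closure
      (Subtype.val ⁻¹' ((StarAlgebra.adjoin ℂ (D.gens hC) : StarSubalgebra ℂ _) : Set _)) := by
    refine closure_subtype.2 ?_
    convert hd using 2
    exact Set.image_preimage_eq_iff.2 fun T hT =>
      ⟨⟨T, StarSubalgebra.le_topologicalClosure _ hT⟩, rfl⟩
  exact closure_minimal (fun b hb => (h b.1 hb).1) hcl hcl'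

/-- The identity representation. -/
noncomputable def idRep : ↥(D.alg hC) →⋆ₐ[ℂ] (D.Space →L[ℂ] D.Space) := (D.alg hC).subtype

theorem nontrivial_space : Nontrivial D.Space :=
  ⟨⟨D.eVec none, 0, fun e => by simpa [e] using D.norm_eVec none⟩⟩

theorem irred_idRep : IsIrred (D.idRep hC) := by
  refine ⟨D.nontrivial_space, fun V hV hinv => ?_⟩
  have : CompleteSpace V := hV.completeSpace_coe
  set P := V.starProjection with hP
  have hPc : ∀ a : ↥(D.alg hC), P * D.idRep hC a = D.idRep hC a * P := fun a => by
    refine ContinuousLinearMap.ext fun f => ?_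
    rw [mul_apply_eq_comp, mul_apply_eq_comp]
    refine Submodule.eq_starProjection_of_mem_orthogonal
      (hinv a _ (V.starProjection_apply_mem f)) ?_
    rw [← map_sub, Submodule.mem_orthogonal]
    intro y hy
    rw [← ContinuousLinearMap.adjoint_inner_left, ← ContinuousLinearMap.star_eq_adjoint,
      ← map_star]
    exact Submodule.inner_right_of_mem_orthogonal (hinv (star a) y hy)
      (V.sub_starProjection_mem_orthogonal f)
  have happ : ∀ a f, P ((a : ↥(D.alg hC)).1 f) = a.1 (P f) := fun a f =>
    DFunLike.congr_fun (hPc a) f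
  set c := ⟪D.eVec none, P (D.eVec none)⟫_ℂ with hc
  by_cases hι : Nonempty D.ι
  case neg =>
    have : IsEmpty D.ι := not_nonempty_iff.1 hι
    have hex : ∀ f : D.Space, f = D.put none (f none) := fun f => lp.ext (funext fun j => by
      cases j with
      | none => rw [put_apply, if_pos rfl]
      | some i => exact isEmptyElim i)
    rcases hC.base.2 (V.comap (D.put none).toLinearMap) (hV.preimage (D.put none).continuous)
        (fun x v hv => by
          show D.put none (D.piece none x v) ∈ V
          rw [← atRep_put (hC := hC)]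
          exact hinv (D.incl hC x) _ hv) with h | h
    · refine Or.inl ((Submodule.eq_bot_iff _).2 fun f hf => ?_)
      have : f none ∈ V.comap (D.put none).toLinearMap := by
        show D.put none (f none) ∈ V
        rwa [← hex f]
      rw [h, Submodule.mem_bot] at this
      rw [hex f, this, map_zero]
    · refine Or.inr (Submodule.eq_top_iff'.2 fun f => ?_)
      have : f none ∈ V.comap (D.put none).toLinearMap := by rw [h]; trivial
      rw [hex f]
      exact this
  have hnone : P (D.eVec none) = c • D.eVec none := by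
    obtain ⟨i⟩ := hι
    refine tendsto_nhds_unique (tendsto_const_nhds.congr fun n => ?_)
      (D.tendsto_flag hC (D.base_piece i) (P (D.eVec none)))
    rw [← coe_incl, ← happ (D.incl hC (D.q i n)), coe_incl, eVec, atRep_put,
      (D.base_piece i).fix]
  have hall : ∀ j, P (D.eVec j) = c • D.eVec j := fun j => by
    cases j with
    | none => exact hnone
    | some i =>
      have h1 : P ((star (D.link hC i)).1 (D.eVec none)) =
          (star (D.link hC i)).1 (P (D.eVec none)) := happ _ _
      rw [hnone, map_smul] at h1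
      have h2 : (star (D.link hC i)).1 (D.eVec none) = D.eVec (some i) := D.star_W_vec hC i
      rwa [h2] at h1
  have hPeq : P = c • (1 : D.Space →L[ℂ] D.Space) := by
    refine D.ext_put fun j v => ?_
    have hv : D.vec j ≠ 0 := fun e => by simpa [e] using D.norm_vec j
    refine (dense_orbit (D.irred_piece hC j) hv).induction_on v
      (isClosed_eq (P.continuous.comp (D.put j).continuous)
        (((c • (1 : D.Space →L[ℂ] D.Space)).continuous.comp (D.put j).continuous))) fun x => ?_
    show P (D.put j (D.piece j x (D.vec j))) = c • D.put j (D.piece j x (D.vec j))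
    rw [← atRep_put (hC := hC), ← coe_incl, happ, ← eVec, hall, map_smul]
  rcases eq_or_ne V ⊥ with h | h
  · exact Or.inl h
  obtain ⟨v, hv, hv0⟩ := (Submodule.ne_bot_iff _).1 h
  have e1 : P v = v := Submodule.starProjection_eq_self_iff.2 hv
  have hc1 : c = 1 := by
    rw [hPeq, smul_apply, one_apply_eq_self] at e1
    have e2 : (c - 1) • v = 0 := by rw [sub_smul, e1, one_smul, sub_self]
    exact sub_eq_zero.1 ((smul_eq_zero.1 e2).resolve_right hv0)
  refine Or.inr (Submodule.eq_top_iff'.2 fun f => Submodule.starProjection_eq_self_iff.1 ?_)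
  show P f = f
  rw [hPeq, hc1, one_smul, one_apply_eq_self]

section Unique

variable {H : Type u} [NormedAddCommGroup H] [InnerProductSpace ℂ H] [CompleteSpace H]
  (π : ↥(D.alg hC) →⋆ₐ[ℂ] (H →L[ℂ] H))

/-- The restriction to the union of the matrix algebras. -/
noncomputable def res : Car →⋆ₐ[ℂ] (H →L[ℂ] H) := π.comp (D.incl hC)

theorem res_apply (x : Car) : D.res hC π x = π (D.incl hC x) := rfl

theorem continuous_rep : Continuous π :=
  AddMonoidHomClass.continuous_of_bound π 1 fun a => by
    rw [one_mul]
    exact NonUnitalStarAlgHom.norm_apply_le π a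

theorem link_fixed (i : D.ι) {a : H} (h : ∀ n, D.res hC π (D.p i n) a = a) (n : ℕ) :
    D.res hC π (D.q i n) (π (D.link hC i) a) = π (D.link hC i) a := by
  rw [res_apply, ← mul_apply_eq_comp, ← map_mul, ← link_flag, map_mul, mul_apply_eq_comp,
    ← res_apply, h n]

variable (hCu : CarSpec.{u}) (hcl : ClassSpec.{u})
include hCu hcl

/-- An irreducible representation has a vector with the expectations of the product vector. -/
theorem exists_base_vector (hπ : IsIrred π) :
    ∃ η : H, ‖η‖ = 1 ∧ ∀ x, ⟪delta0, baseRep x delta0⟫_ℂ = ⟪η, D.res hC π x η⟫_ℂ := by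
  by_cases hex : ∃ (i : D.ι) (a : H), a ≠ 0 ∧ ∀ n, D.res hC π (D.p i n) a = a
  · obtain ⟨i, a, ha, hfix⟩ := hex
    set b : H := ((‖a‖⁻¹ : ℝ) : ℂ) • a
    have hb : ∀ n, D.res hC π (D.p i n) b = b := fun n => by rw [map_smul, hfix n]
    have hbn : ‖b‖ = 1 := by
      rw [norm_smul, Complex.norm_real, norm_inv, norm_norm,
        inv_mul_cancel₀ (norm_ne_zero_iff.2 ha)]
    have hn : ‖π (D.link hC i) b‖ = 1 := by
      have : ⟪π (D.link hC i) b, π (D.link hC i) b⟫_ℂ = ⟪b, b⟫_ℂ := by
        rw [← ContinuousLinearMap.adjoint_inner_right, ← ContinuousLinearMap.star_eq_adjoint,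
          ← map_star, ← mul_apply_eq_comp, ← map_mul, star_link_link, map_one, one_apply_eq_self]
      rw [← hbn]
      refine (sq_eq_sq₀ (norm_nonneg _) (norm_nonneg _)).1 ?_
      rw [← inner_self_eq_norm_sq (𝕜 := ℂ), this, inner_self_eq_norm_sq]
    refine ⟨_, hn, fun x => ?_⟩
    rw [(D.base i).inner_fix (D.res hC π) (hCu.norm_le H _) (D.link_fixed hC π i hb)
      (D.link_fixed hC π i hb), inner_self_eq_norm_sq_to_K, hn]
    simp
  have hz : ∀ i a, Tendsto (fun n => D.res hC π (D.p i n) a) atTop (𝓝 0) := fun i a => by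
    obtain ⟨L, hL, hfix⟩ := (D.flag i).exists_limit (D.res hC π) a
    by_cases h0 : L = 0
    · rwa [h0] at hL
    · exact absurd ⟨i, L, h0, hfix⟩ hex
  -- the restriction is irreducible
  have hirr : IsIrred (D.res hC π) := by
    refine ⟨hπ.1, fun V hV hinv => hπ.2 V hV fun a => ?_⟩
    have : CompleteSpace V := hV.completeSpace_coe
    set P := V.starProjection
    have hx : ∀ x, P * D.res hC π x = D.res hC π x * P := fun x => by
      refine ContinuousLinearMap.ext fun f => ?_
      rw [mul_apply_eq_comp, mul_apply_eq_comp]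
      refine Submodule.eq_starProjection_of_mem_orthogonal
        (hinv x _ (V.starProjection_apply_mem f)) ?_
      rw [← map_sub, Submodule.mem_orthogonal]
      intro y hy
      rw [← ContinuousLinearMap.adjoint_inner_left, ← ContinuousLinearMap.star_eq_adjoint,
        ← map_star]
      exact Submodule.inner_right_of_mem_orthogonal (hinv (star x) y hy)
        (V.sub_starProjection_mem_orthogonal f)
    have hw : ∀ i, P * π (D.link hC i) = π (D.link hC i) * P := fun i => by
      refine ContinuousLinearMap.ext fun f => ?_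
      have h1 : ∀ g, Tendsto (fun n => D.res hC π (linkSum (D.v i) n) g) atTop
          (𝓝 (π (D.link hC i) g)) := fun g => by
        have h2 : Tendsto (fun n => π (D.link hC i) (g - D.res hC π (D.p i n) g)) atTop
            (𝓝 (π (D.link hC i) g)) := by
          have := ((π (D.link hC i)).continuous.tendsto _).comp ((hz i g).const_sub g)
          simpa [Function.comp_def] using this
        refine h2.congr fun n => ?_
        rw [res_apply, res_apply, ← link_mul, map_mul, mul_apply_eq_comp, map_sub (D.incl hC),
          map_one, map_sub π, map_one, sub_apply, one_apply_eq_self]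
      rw [mul_apply_eq_comp, mul_apply_eq_comp]
      refine tendsto_nhds_unique ((P.continuous.tendsto _).comp (h1 f))
        ((h1 (P f)).congr fun n => ?_)
      exact (DFunLike.congr_fun (hx _) f).symm
    have hws : ∀ i, P * π (star (D.link hC i)) = π (star (D.link hC i)) * P := fun i => by
      have := congrArg star (hw i)
      rwa [star_mul, star_mul, (isSelfAdjoint_starProjection V).star_eq, ← map_star,
        eq_comm] at this
    have hall : ∀ b, P * π b = π b * P := D.alg_induction hC
      (isClosed_eq (continuous_const.mul (D.continuous_rep hC π))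
        ((D.continuous_rep hC π).mul continuous_const)) hx hw hws
      (fun a b ha hb => by rw [map_add, mul_add, add_mul, ha, hb])
      (fun a b ha hb => by rw [map_mul, ← mul_assoc, ha, mul_assoc, hb, mul_assoc])
    intro h hh
    have e := DFunLike.congr_fun (hall a) h
    rw [mul_apply_eq_comp, mul_apply_eq_comp, Submodule.starProjection_eq_self_iff.2 hh] at e
    exact Submodule.starProjection_eq_self_iff.1 e
  obtain ⟨σ, hσ, U, hU⟩ := hcl H _ hirr
  obtain ⟨U', hU'⟩ | ⟨i, U', hU'⟩ := D.exhaust σ hσ
  · refine ⟨U.symm (U'.symm delta0), by simp [delta0, lp.norm_single], fun x => ?_⟩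
    rw [← U.inner_map_map, hU, U.apply_symm_apply]
    conv_rhs => rw [← U'.inner_map_map, hU', U'.apply_symm_apply]
  · refine absurd ⟨i, U.symm (U'.symm (D.ξ i)), fun e => ?_, fun n => ?_⟩ hex
    · have h1 : U' (U (U.symm (U'.symm (D.ξ i)))) = 0 := by rw [e, map_zero, map_zero]
      rw [U.apply_symm_apply, U'.apply_symm_apply] at h1
      simpa [h1] using (D.flag i).unit
    · refine U.injective (U'.injective ?_)
      rw [hU, U.apply_symm_apply, hU', U'.apply_symm_apply, (D.flag i).fix]

/-- Every irreducible representation is equivalent to the identity one. -/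
theorem uniEquiv_idRep (hπ : IsIrred π) : UniEquiv (D.idRep hC) π := by
  obtain ⟨η, hη, hbase⟩ := D.exists_base_vector hC π hCu hcl hπ
  set σ := D.res hC π
  have hfixη : ∀ i n, σ (D.q i n) η = η := fun i n => by
    refine proj_fix (((D.base i).proj n).map σ) ?_
    rw [← hbase, (D.base i).fix, inner_self_eq_norm_sq_to_K, inner_self_eq_norm_sq_to_K, hη,
      (D.base i).unit]
  set vec' : Option D.ι → H := fun j => j.elim η fun i => π (star (D.link hC i)) η
  have hlink : ∀ i, π (D.link hC i) (vec' (some i)) = η := fun i => by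
    show π (D.link hC i) (π (star (D.link hC i)) η) = η
    rw [← mul_apply_eq_comp, ← map_mul, link_star_link, map_one, one_apply_eq_self]
  have hfix' : ∀ i n, σ (D.p i n) (vec' (some i)) = vec' (some i) := fun i n => by
    have e : D.incl hC (D.p i n) * star (D.link hC i) =
        star (D.link hC i) * D.incl hC (D.q i n) := by
      have := congrArg star (D.link_flag hC i n)
      rwa [star_mul, star_mul, ← map_star, ← map_star, ((D.flag i).proj n).isSelfAdjoint.star_eq,
        ((D.base i).proj n).isSelfAdjoint.star_eq] at this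
    show π (D.incl hC (D.p i n)) (π (star (D.link hC i)) η) = π (star (D.link hC i)) η
    rw [← mul_apply_eq_comp, ← map_mul, e, map_mul, mul_apply_eq_comp]
    exact congrArg (π (star (D.link hC i))) (hfixη i n)
  have hstate : ∀ j x, ⟪D.vec j, D.piece j x (D.vec j)⟫_ℂ = ⟪vec' j, σ x (vec' j)⟫_ℂ := by
    intro j x
    cases j with
    | none => exact hbase x
    | some i =>
      rw [(D.flag i).inner_fix σ (hCu.norm_le H _) (hfix' i) (hfix' i)]
      have e : ⟪vec' (some i), vec' (some i)⟫_ℂ = 1 := by
        show ⟪π (star (D.link hC i)) η, π (star (D.link hC i)) η⟫_ℂ = 1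
        rw [map_star, ContinuousLinearMap.star_eq_adjoint, ContinuousLinearMap.adjoint_inner_left]
        rw [← ContinuousLinearMap.star_eq_adjoint, ← map_star]
        erw [hlink i]
        rw [inner_self_eq_norm_sq_to_K, hη]
        simp
      rw [e, mul_one]
      rfl
  choose T hT0 hT using fun j => exists_isometry (D.irred_piece hC j) σ
    (fun e => by simpa [e] using D.norm_vec j) (hstate j)
  have horth1 : ∀ i k, some i ≠ k → ∀ u v, ⟪T (some i) u, T k v⟫_ℂ = 0 := by
    intro i k hik u v
    have hv : D.vec (some i) ≠ 0 := fun e => by simpa [e] using D.norm_vec (some i)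
    refine (dense_orbit (D.irred_piece hC (some i)) hv).induction_on u
      (isClosed_eq ((T (some i)).continuous.inner continuous_const) continuous_const) fun x => ?_
    show ⟪T (some i) (D.piece (some i) x (D.vec (some i))), T k v⟫_ℂ = 0
    rw [hT, hT0]
    obtain ⟨L, hL, hLfix⟩ := (D.flag i).exists_limit (D.piece k) (D.piece k (star x) v)
    have hL0 : L = 0 := D.eq_zero_of_fix hik (D.flag_piece i) hLfix hC
    have hlim : Tendsto
        (fun n => ⟪vec' (some i), T k (D.piece k (D.p i n) (D.piece k (star x) v))⟫_ℂ) atTop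
        (𝓝 0) := by
      have hcont : Continuous fun w => ⟪vec' (some i), T k w⟫_ℂ :=
        continuous_const.inner (T k).continuous
      have := (hcont.tendsto L).comp hL
      rw [hL0, map_zero, inner_zero_right] at this
      exact this
    refine tendsto_nhds_unique (tendsto_const_nhds.congr fun n => ?_) hlim
    rw [hT k (D.p i n), inner_proj (((D.flag i).proj n).map σ), hfix', hT, map_star,
      ContinuousLinearMap.star_eq_adjoint, ContinuousLinearMap.adjoint_inner_right]
  have horth : OrthogonalFamily ℂ (fun _ : Option D.ι => K0) T := by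
    intro j k hjk u v
    cases j with
    | some i => exact horth1 i k hjk u v
    | none =>
      cases k with
      | none => exact absurd rfl hjk
      | some i => rw [← inner_conj_symm, horth1 i none (Ne.symm hjk) v u, map_zero]
  set TT : D.Space →ₗᵢ[ℂ] H := horth.linearIsometry
  have hput : ∀ j v, TT (D.put j v) = T j v := fun j v => by
    classical
    exact horth.linearIsometry_apply_single v
  set S : D.Space →L[ℂ] H := TT.toContinuousLinearMap
  have hcar : ∀ x, S ∘L D.atRep hC x = σ x ∘L S := fun x => D.ext_put fun j v => by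
    show TT (D.atRep hC x (D.put j v)) = σ x (TT (D.put j v))
    rw [atRep_put, hput, hput, hT]
  have hW : ∀ i, S ∘L D.W hC i = π (D.link hC i) ∘L S := fun i => by
    refine D.ext_flag hC (D.flag_piece i) (fun n f => ?_) ?_
    · show TT (D.W hC i (D.atRep hC (1 - D.p i n) f)) =
        π (D.link hC i) (TT (D.atRep hC (1 - D.p i n) f))
      rw [← mul_apply_eq_comp, W_mul]
      have h1 := DFunLike.congr_fun (hcar (linkSum (D.v i) n)) f
      have h2 := DFunLike.congr_fun (hcar (1 - D.p i n)) f
      rw [show TT (D.atRep hC (linkSum (D.v i) n) f) = σ (linkSum (D.v i) n) (TT f) from h1,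
        show TT (D.atRep hC (1 - D.p i n) f) = σ (1 - D.p i n) (TT f) from h2]
      show π (D.incl hC (linkSum (D.v i) n)) (TT f) = _
      rw [← link_mul, map_mul, mul_apply_eq_comp]
      rfl
    · show TT (D.W hC i (D.eVec (some i))) = π (D.link hC i) (TT (D.eVec (some i)))
      rw [W_vec, eVec, eVec, hput, hput, hT0, hT0, hlink]
      rfl
  have hWs : ∀ i, S ∘L star (D.W hC i) = π (star (D.link hC i)) ∘L S := fun i => by
    refine ContinuousLinearMap.ext fun f => ?_
    show TT (star (D.W hC i) f) = π (star (D.link hC i)) (TT f)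
    have h1 := DFunLike.congr_fun (hW i) (star (D.W hC i) f)
    rw [show (S ∘L D.W hC i) (star (D.W hC i) f) = TT ((D.W hC i * star (D.W hC i)) f) from rfl,
      W_star_W, one_apply_eq_self] at h1
    rw [h1]
    show _ = π (star (D.link hC i)) (π (D.link hC i) (TT (star (D.W hC i) f)))
    rw [← mul_apply_eq_comp, ← map_mul, star_link_link, map_one, one_apply_eq_self]
  have hall : ∀ a : ↥(D.alg hC), S ∘L a.1 = π a ∘L S := D.alg_induction hC
    (isClosed_eq (continuous_const.clm_comp continuous_subtype_val)
      ((D.continuous_rep hC π).clm_comp continuous_const))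
    hcar hW hWs
    (fun a b ha hb => by
      rw [map_add, ContinuousLinearMap.add_comp, ← ha, ← hb, ← ContinuousLinearMap.comp_add]
      rfl)
    (fun a b ha hb => ContinuousLinearMap.ext fun f => by
      show TT (a.1 (b.1 f)) = π (a * b) (TT f)
      rw [map_mul, mul_apply_eq_comp]
      exact (DFunLike.congr_fun ha (b.1 f)).trans
        (congrArg (π a) (DFunLike.congr_fun hb f)))
  have hsurj : Function.Surjective TT := by
    have hcl : IsClosed (Set.range TT) := TT.isometry.isClosedEmbedding.isClosed_range
    rcases hπ.2 (LinearMap.range TT.toLinearMap) hcl (fun a h hh => by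
      obtain ⟨f, rfl⟩ := hh
      exact ⟨a.1 f, DFunLike.congr_fun (hall a) f⟩) with h | h
    · exfalso
      have : T none (D.vec none) ∈ LinearMap.range TT.toLinearMap := ⟨_, hput none (D.vec none)⟩
      rw [h, Submodule.mem_bot, hT0] at this
      exact (fun e : η = 0 => by simp [e] at hη) this
    · intro y
      have : y ∈ LinearMap.range TT.toLinearMap := by rw [h]; trivial
      exact this
  exact ⟨LinearIsometryEquiv.ofSurjective TT hsurj, fun a f => DFunLike.congr_fun (hall a) f⟩

end Unique

/-- The algebra is infinite dimensional. -/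
theorem not_finiteDimensional : ¬ FiniteDimensional ℂ ↥(D.alg hC) := by
  intro hfin
  have hinj : Function.Injective (D.incl hC) := fun x y e => by
    refine Subtype.ext (ContinuousLinearMap.ext fun f => ?_)
    have h : D.atRep hC x (D.put none f) = D.atRep hC y (D.put none f) := by
      rw [← coe_incl, ← coe_incl, e]
    rw [atRep_put, atRep_put] at h
    have := congrArg (fun g : D.Space => g none) h
    simpa [put_apply, piece] using this
  have : FiniteDimensional ℂ Car :=
    FiniteDimensional.of_injective (D.incl hC).toAlgHom.toLinearMap hinj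
  set r := Module.finrank ℂ Car
  let L : Mat (r + 1) →ₗ[ℂ] Car :=
    { toFun := fun X => ⟨matOp X, hC.level_mem _ X⟩
      map_add' := fun X Y => Subtype.ext (hC.add _ X Y)
      map_smul' := fun c X => Subtype.ext (hC.smul _ c X) }
  have h1 := LinearMap.finrank_le_finrank_of_injective (f := L)
    fun X Y e => hC.inj _ (congrArg Subtype.val e)
  rw [Module.finrank_matrix, Fintype.card_fun, Fintype.card_fin, Fintype.card_fin,
    Module.finrank_self, mul_one] at h1
  have h2 : r + 1 < 2 ^ (r + 1) := Nat.lt_two_pow_self
  nlinarith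

end Vale.Agent.P070.Atlas

namespace Vale.Agent.P070

universe u v w

/-- UNIQUE. -/
theorem uniqueModule : UniqueModule.{u, v, w} := fun hC hCu hCv hclu hclv hK D =>
  ⟨↥(D.alg hC), inferInstance, D.Space, inferInstance, inferInstance, inferInstance, D.idRep hC,
    D.irred_idRep hC, fun _ _ _ _ π hπ => D.uniEquiv_idRep hC π hCu hclu hπ,
    fun _ _ _ _ π hπ => D.uniEquiv_idRep hC π hCv hclv hπ,
    fun H _ _ _ φ hφ => hK _ (D.not_finiteDimensional hC) H φ hφ⟩

end Vale.Agent.P070
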